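import Crest.Agent.ES.Iter

/-!
# Row 107: geometry and assembly
-/

set_option autoImplicit false

namespace Crest.Agent.ES

open Finset Tr MeasureTheory

theorem vol_affine {N : ℝ} (hN : 0 < N) (c : ℝ) (s : Set ℝ) :
    volume {y : ℝ | N * y - c ∈ s} = ENNReal.ofReal (1 / N) * volume s := by
  have h1 : {y : ℝ | N * y - c ∈ s} = (fun y => N * y) ⁻¹' ((fun y => y + -c) ⁻¹' s) := by
    ext y
    simp [sub_eq_add_neg]
  rw [h1, Real.volume_preimage_mul_left hN.ne', measure_preimage_add_right, abs_of_pos (inv_pos.2 hN),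
    one_div]

theorem open_affine (N c : ℝ) {s : Set ℝ} (hs : IsOpen s) : IsOpen {y : ℝ | N * y - c ∈ s} :=
  hs.preimage (by fun_prop : Continuous fun y : ℝ => N * y - c)

theorem vol_union_affine {N : ℕ} (hN : 0 < N) (s : Fin N → Set ℝ) (c : Fin N → ℝ)
    (h0 : ∀ j, 0 ≤ c j) (h : ∀ j, volume (s j) ≤ ENNReal.ofReal (c j)) :
    volume {y : ℝ | ∃ j : Fin N, (N:ℝ) * y - ((j : Fin N) : ℕ) ∈ s j} ≤
      ENNReal.ofReal ((∑ j, c j) / N) := by
  have hN' : (0:ℝ) < N := by exact_mod_cast hN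
  have h1 : {y : ℝ | ∃ j : Fin N, (N:ℝ) * y - ((j : Fin N) : ℕ) ∈ s j} =
      ⋃ j : Fin N, {y : ℝ | (N:ℝ) * y - ((j : Fin N) : ℕ) ∈ s j} := by
    ext y; simp
  rw [h1]
  refine (measure_iUnion_fintype_le _ _).trans ?_
  have h2 : ∀ j : Fin N, volume {y : ℝ | (N:ℝ) * y - ((j : Fin N) : ℕ) ∈ s j} ≤
      ENNReal.ofReal (c j / N) := by
    intro j
    rw [vol_affine hN']
    refine (mul_le_mul_right (h j) _).trans ?_
    rw [← ENNReal.ofReal_mul (by positivity)]
    apply le_of_eq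
    congr 1
    ring
  refine (Finset.sum_le_sum fun j _ => h2 j).trans ?_
  rw [← ENNReal.ofReal_sum_of_nonneg (fun j _ => div_nonneg (h0 j) hN'.le), Finset.sum_div]

variable {B : ℕ}

theorem mu_nonneg (t : Tr B) : 0 ≤ mu t := by
  induction t with
  | empty => exact le_refl _
  | full => exact zero_le_one
  | mark t ih => exact ih
  | node f ih =>
    rw [mu]
    exact div_nonneg (Finset.sum_nonneg fun j _ => ih j) (Nat.cast_nonneg _)

theorem S_open (a : ℝ) (t : Tr B) : IsOpen (S a t) := by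
  induction t with
  | empty => exact isOpen_empty
  | full => exact isOpen_Ioo
  | mark t ih => exact ih
  | node f ih =>
    have h1 : S a (.node f) = ⋃ j : Fin B, {y : ℝ | (B:ℝ) * y - ((j : Fin B) : ℕ) ∈ S a (f j)} := by
      ext y; simp [S]
    rw [h1]
    exact isOpen_iUnion fun j => open_affine _ _ (ih j)

theorem vol_S [NeZero B] (t : Tr B) : volume (S 2 t) ≤ ENNReal.ofReal (5 * mu t) := by
  induction t with
  | empty => simp [S, mu]
  | full =>
    rw [S, mu, Real.volume_Ioo]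
    apply ENNReal.ofReal_le_ofReal
    norm_num
  | mark t ih => exact ih
  | node f ih =>
    have h := vol_union_affine (Nat.pos_of_ne_zero (NeZero.ne B)) (fun j => S 2 (f j))
      (fun j => 5 * mu (f j)) (fun j => mul_nonneg (by norm_num) (mu_nonneg _)) ih
    refine h.trans (le_of_eq ?_)
    rw [mu, ← Finset.mul_sum]
    congr 1
    ring

/-- neighbourhood of the cells of depth `D` whose left end point satisfies `S` -/
def Bad (B : ℕ) : ℕ → (ℝ → Prop) → Set ℝ
  | 0, S => {y | S 0 ∧ y ∈ Set.Ioo (-1:ℝ) 2}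
  | D + 1, S => {y | ∃ j : Fin B, (B:ℝ) * y - ((j : Fin B) : ℕ) ∈ Bad B D (fun z => S (cell B j z))}

theorem bad_open (D : ℕ) : ∀ S : ℝ → Prop, IsOpen (Bad B D S) := by
  induction D with
  | zero =>
    intro S
    rw [Bad]
    by_cases h : S 0
    · simp only [h, true_and]
      exact isOpen_Ioo
    · simp only [h, false_and]
      exact isOpen_empty
  | succ D ih =>
    intro S
    have h1 : Bad B (D + 1) S = ⋃ j : Fin B,
        {y : ℝ | (B:ℝ) * y - ((j : Fin B) : ℕ) ∈ Bad B D (fun z => S (cell B j z))} := by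
      ext y; simp [Bad]
    rw [h1]
    exact isOpen_iUnion fun j => open_affine _ _ (ih _)

open Classical in
theorem vol_bad [NeZero B] (D : ℕ) : ∀ S : ℝ → Prop,
    volume (Bad B D S) ≤ ENNReal.ofReal (3 * Av B D (fun x => if S x then 1 else 0)) := by
  induction D with
  | zero =>
    intro S
    rw [Bad, Av]
    by_cases h : S 0
    · simp only [h, true_and, if_true]
      have : {y : ℝ | y ∈ Set.Ioo (-1:ℝ) 2} = Set.Ioo (-1:ℝ) 2 := rfl
      rw [this, Real.volume_Ioo]
      apply ENNReal.ofReal_le_ofReal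
      norm_num
    · simp [h]
  | succ D ih =>
    intro S
    have h := vol_union_affine (Nat.pos_of_ne_zero (NeZero.ne B))
      (fun j => Bad B D (fun z => S (cell B j z)))
      (fun j => 3 * Av B D (fun z => if S (cell B j z) then 1 else 0)) (fun j => by
        refine mul_nonneg (by norm_num) ?_
        have := Av_mono (B := B) D (f := fun _ => 0)
          (g := fun z => if S (cell B j z) then 1 else 0) (fun z _ => by
            split_ifs
            · exact zero_le_one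
            · exact le_refl _)
        rwa [Av_const] at this) (fun j => ih _)
    refine h.trans (le_of_eq ?_)
    rw [Av, ← Finset.mul_sum]
    congr 1
    ring

/-- truncation -/
noncomputable def tr (B : ℕ) [NeZero B] : ℕ → ℝ → ℝ
  | 0, _ => 0
  | D + 1, x => cell B (idx B x) (tr B D (fr B x))

theorem tr_spec [NeZero B] (D : ℕ) : ∀ x ∈ Set.Ico (0:ℝ) 1,
    tr B D x ∈ Set.Ico (0:ℝ) 1 ∧ |x - tr B D x| < 1 / (B:ℝ) ^ D := by
  induction D with
  | zero =>
    intro x hx
    rw [tr]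
    refine ⟨by simp, ?_⟩
    rw [sub_zero, pow_zero, div_one, abs_of_nonneg hx.1]
    exact hx.2
  | succ D ih =>
    intro x hx
    have h := ih _ (fr_mem (B := B) hx)
    rw [tr]
    refine ⟨cell_mem _ h.1, ?_⟩
    have hB := B_pos (B := B)
    have e : x - cell B (idx B x) (tr B D (fr B x)) = (fr B x - tr B D (fr B x)) / B := by
      have : x = (((idx B x : Fin B) : ℕ) + fr B x) / B := by
        rw [eq_div_iff hB.ne']
        unfold fr
        ring
      unfold cell
      rw [← sub_eq_zero]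
      nth_rewrite 1 [this]
      ring
    rw [e, abs_div, abs_of_pos hB, pow_succ, ← div_div]
    exact div_lt_div_of_pos_right h.2 hB

theorem mem_bad [NeZero B] (D : ℕ) : ∀ (S : ℝ → Prop) (x : ℝ), x ∈ Set.Ico (0:ℝ) 1 →
    S (tr B D x) → x ∈ Bad B D S := by
  induction D with
  | zero =>
    intro S x hx hS
    exact ⟨hS, by linarith [hx.1], by linarith [hx.2]⟩
  | succ D ih =>
    intro S x hx hS
    exact ⟨idx B x, ih (fun z => S (cell B (idx B x) z)) _ (fr_mem hx) hS⟩

/-- the finite statement -/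
theorem exists_U {q : ℝ} (hq0 : 0 < q) (hq1 : q < 1) {ε : ℝ} (hε : 0 < ε) :
    ∃ U : Set ℝ, IsOpen U ∧ volume U ≤ ENNReal.ofReal ε ∧ ∀ x ∈ Set.Ico (0:ℝ) 1, x ∉ U →
      ∀ σ : ℝ, q ≤ |σ| → |σ| ≤ 1 → ∃ n : ℕ, x + σ * q ^ n ∈ U := by
  classical
  obtain ⟨b0, hb0⟩ := exists_nat_gt (1 / q)
  set b := max b0 4 with hb
  have hb4 : 4 ≤ b := le_max_right _ _
  have hbq : 1 < (b:ℝ) * q := by
    have h1 : 1 / q < b := hb0.trans_le (by exact_mod_cast le_max_left b0 4)
    rwa [div_lt_iff₀ hq0] at h1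
  have : NeZero (b * b) := ⟨by positivity⟩
  obtain ⟨K, D0, P, hP⟩ := exists_good (B := b * b) (η := min (ε / 10) 1) hq0 hq1 hb4 rfl hbq
    (by positivity) (min_le_right _ _) (show 0 < ε / 6 by positivity)
  set D := max D0 (Finset.univ.sup fun o : P.Ω => depth (P.v o)) with hD
  obtain ⟨ψ, hψ⟩ : ∃ ψ : Tr (b * b) → ℝ → Prop, ψ = fun t x => ¬ Kill q t x := ⟨_, rfl⟩
  have hE : P.E (fun t => 5 * mu t +
      3 * Av (b * b) D (fun x => if ψ t x then 1 else 0)) ≤ ε := by
    rw [P.E_add, P.E_const_mul, P.E_const_mul, ← Av_E D P (fun t x => if ψ t x then 1 else 0)]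
    have h1 := hP.mass
    have h2 := hP.kill D (le_max_left _ _)
    have h3 : min (ε / 10) 1 ≤ ε / 10 := min_le_left _ _
    have h4 : Av (b * b) D (fun x => P.E (fun t => if ψ t x then 1 else 0)) ≤ ε / 6 := by
      rw [hψ]
      refine le_trans (le_of_eq ?_) h2
      congr 1
    linarith
  obtain ⟨o, ho⟩ := P.exists_le _ hE
  set t := P.v o with ht
  refine ⟨S 2 t ∪ Bad (b * b) D (ψ t), (S_open 2 t).union (bad_open D _), ?_, ?_⟩
  · refine (measure_union_le _ _).trans ((add_le_add (vol_S t) (vol_bad D _)).trans ?_)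
    rw [← ENNReal.ofReal_add (mul_nonneg (by norm_num) (mu_nonneg t)) (mul_nonneg (by norm_num) ?_)]
    · refine ENNReal.ofReal_le_ofReal (le_trans (le_of_eq ?_) ho)
      congr
    · have := Av_mono (B := b * b) D (f := fun _ => 0)
          (g := fun x => if ψ t x then 1 else 0) (fun z _ => by
            split_ifs
            · exact zero_le_one
            · exact le_refl _)
      rw [Av_const] at this
      refine this.trans (le_of_eq ?_)
      congr
  · intro x hx hxU σ hσ hσ'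
    have hk : Kill q t (tr (b * b) D x) := by
      by_contra hc
      refine hxU (Or.inr (mem_bad D (ψ t) x hx ?_))
      rw [hψ]
      exact hc
    obtain ⟨n, hn⟩ := hk σ hσ hσ'
    refine ⟨n, Or.inl (S_depth t (D := D) ?_ hn ?_)⟩
    · exact (Finset.le_sup (f := fun o : P.Ω => depth (P.v o)) (Finset.mem_univ o)).trans
        (le_max_right _ _)
    · have e : x + σ * q ^ n - (tr (b * b) D x + σ * q ^ n) = x - tr (b * b) D x := by ring
      rw [e]
      exact (tr_spec D x hx).2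

/-- all scales bounded below -/
theorem exists_U' {q : ℝ} (hq0 : 0 < q) (hq1 : q < 1) {ε ρ : ℝ} (hε : 0 < ε) (hρ : 0 < ρ) :
    ∃ U : Set ℝ, IsOpen U ∧ volume U ≤ ENNReal.ofReal ε ∧ ∀ x ∈ Set.Ico (0:ℝ) 1, x ∉ U →
      ∀ σ : ℝ, ρ ≤ |σ| → ∃ n : ℕ, x + σ * q ^ n ∈ U := by
  obtain ⟨U, hU, hv, hk⟩ := exists_U hq0 hq1 hε
  obtain ⟨N, hN⟩ := exists_nat_gt (1 / ρ)
  have hN0 : 0 < N := by
    have : (0:ℝ) < N := lt_trans (by positivity) hN
    exact_mod_cast this
  have : NeZero N := ⟨hN0.ne'⟩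
  have hNR : (0:ℝ) < N := by exact_mod_cast hN0
  refine ⟨{y : ℝ | ∃ j : Fin N, (N:ℝ) * y - ((j : Fin N) : ℕ) ∈ U}, ?_, ?_, ?_⟩
  · have h1 : {y : ℝ | ∃ j : Fin N, (N:ℝ) * y - ((j : Fin N) : ℕ) ∈ U} =
        ⋃ j : Fin N, {y : ℝ | (N:ℝ) * y - ((j : Fin N) : ℕ) ∈ U} := by
      ext y; simp
    rw [h1]
    exact isOpen_iUnion fun j => open_affine _ _ hU
  · refine (vol_union_affine hN0 (fun _ => U) (fun _ => ε) (fun _ => hε.le) (fun _ => hv)).trans ?_
    apply ENNReal.ofReal_le_ofReal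
    rw [Finset.sum_const, Finset.card_univ, Fintype.card_fin, nsmul_eq_mul,
      mul_div_cancel_left₀ _ hNR.ne']
  · intro x hx hxU σ hσ
    have hx' : fr N x ∉ U := fun h => hxU ⟨idx N x, h⟩
    have h2 : q * 1 ≤ |(N:ℝ) * σ| := by
      rw [abs_mul, abs_of_pos hNR]
      have h3 : 1 < N * ρ := by
        rwa [div_lt_iff₀ hρ] at hN
      have h4 := mul_le_mul_of_nonneg_left hσ hNR.le
      linarith
    obtain ⟨n0, hn0, hn0'⟩ := exists_pow hq0 hq1 one_pos h2
    have h3 : |(N:ℝ) * σ * q ^ n0| = |(N:ℝ) * σ| * q ^ n0 := by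
      rw [abs_mul, abs_of_pos (pow_pos hq0 _)]
    obtain ⟨n, hn⟩ := hk (fr N x) (fr_mem hx) hx' (N * σ * q ^ n0) (by rw [h3]; linarith)
      (by rw [h3]; exact hn0')
    refine ⟨n0 + n, idx N x, ?_⟩
    have e : (N:ℝ) * (x + σ * q ^ (n0 + n)) - ((idx N x : Fin N) : ℕ) =
        fr N x + N * σ * q ^ n0 * q ^ n := by
      unfold fr
      rw [pow_add]
      ring
    rw [e]
    exact hn

theorem main {q η : ℝ} (hq0 : 0 < q) (hq1 : q < 1) (hη0 : 0 < η) (hη1 : η < 1) :
    ∃ E : Set ℝ, IsCompact E ∧ E ⊆ Set.Icc 0 1 ∧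
      ENNReal.ofReal (1 - η) < volume E ∧
      ∀ x s : ℝ, s ≠ 0 → ∃ n : ℕ, 1 ≤ n ∧ x + s * q ^ n ∉ E := by
  choose U hU hv hk using fun r : ℕ => exists_U' (q := q) (ε := (η / 4) * (1 / 2) ^ (r + 1))
    (ρ := 1 / ((r:ℝ) + 1)) hq0 hq1 (by positivity) (by positivity)
  refine ⟨Set.Icc 0 (1 - η / 4) \ ⋃ r, U r, isCompact_Icc.diff (isOpen_iUnion hU), ?_, ?_, ?_⟩
  · exact Set.sdiff_subset.trans (Set.Icc_subset_Icc_right (by linarith))
  · have hvol : volume (⋃ r, U r) ≤ ENNReal.ofReal (η / 4) := by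
      refine (measure_iUnion_le _).trans ((ENNReal.tsum_le_tsum hv).trans ?_)
      have hs : HasSum (fun r : ℕ => (η / 4) * (1 / 2 : ℝ) ^ (r + 1)) (η / 4) := by
        have h := (hasSum_geometric_two).mul_left ((η / 4) * (1 / 2))
        have e : (η / 4) * (1 / 2) * 2 = η / 4 := by ring
        rw [e] at h
        have e2 : (fun r : ℕ => (η / 4) * (1 / 2 : ℝ) ^ (r + 1)) =
            fun r : ℕ => (η / 4) * (1 / 2) * (1 / 2 : ℝ) ^ r := by
          funext r
          rw [pow_succ]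
          ring
        rw [e2]
        exact h
      rw [← ENNReal.ofReal_tsum_of_nonneg (fun r => by positivity) hs.summable, hs.tsum_eq]
    have h1 : volume (Set.Icc (0:ℝ) (1 - η / 4)) = ENNReal.ofReal (1 - η / 4) := by
      rw [Real.volume_Icc, sub_zero]
    have h2 : ENNReal.ofReal (1 - η / 4) - ENNReal.ofReal (η / 4) ≤
        volume (Set.Icc (0:ℝ) (1 - η / 4) \ ⋃ r, U r) := by
      refine le_trans ?_ le_measure_sdiff
      rw [h1]
      exact tsub_le_tsub_left hvol _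
    refine lt_of_lt_of_le ?_ h2
    rw [← ENNReal.ofReal_sub _ (by positivity)]
    exact (ENNReal.ofReal_lt_ofReal_iff (by linarith)).2 (by linarith)
  · intro x s hs
    by_contra hc
    push Not at hc
    have hmem : ∀ n : ℕ, x + (s * q) * q ^ n ∈ Set.Icc 0 (1 - η / 4) \ ⋃ r, U r := by
      intro n
      have := hc (n + 1) (by omega)
      rwa [pow_succ', ← mul_assoc] at this
    have hclosed : IsClosed (Set.Icc 0 (1 - η / 4) \ ⋃ r, U r) :=
      (isCompact_Icc.diff (isOpen_iUnion hU)).isClosed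
    have hlim : Filter.Tendsto (fun n : ℕ => x + (s * q) * q ^ n) Filter.atTop (nhds (x + (s * q) * 0)) :=
      ((tendsto_pow_atTop_nhds_zero_of_lt_one hq0.le hq1).const_mul _).const_add _
    rw [mul_zero, add_zero] at hlim
    have hx : x ∈ Set.Icc 0 (1 - η / 4) \ ⋃ r, U r :=
      hclosed.mem_of_tendsto hlim (Filter.Eventually.of_forall hmem)
    have hsq : 0 < |s * q| := abs_pos.2 (mul_ne_zero hs hq0.ne')
    obtain ⟨r, hr⟩ := exists_nat_gt (1 / |s * q|)
    have hρ : 1 / ((r:ℝ) + 1) ≤ |s * q| := by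
      rw [div_le_iff₀ (by positivity)]
      rw [div_lt_iff₀ hsq] at hr
      nlinarith
    obtain ⟨n, hn⟩ := hk r x ⟨hx.1.1, by linarith [hx.1.2]⟩
      (fun h => hx.2 (Set.mem_iUnion.2 ⟨r, h⟩)) (s * q) hρ
    exact (hmem n).2 (Set.mem_iUnion.2 ⟨r, hn⟩)

end Crest.Agent.ES
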