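import Mathlib

/-!
# Row 107: finite random variables
-/

set_option autoImplicit false

namespace Crest.Agent.ES

open Finset

/-- A random variable on a finite probability space. -/
structure FRV (α : Type) where
  Ω : Type
  [fin : Fintype Ω]
  w : Ω → ℝ
  w_nonneg : ∀ o, 0 ≤ w o
  w_sum : ∑ o, w o = 1
  v : Ω → α

attribute [instance] FRV.fin

namespace FRV

variable {α β : Type}

/-- expectation -/
noncomputable def E (X : FRV α) (φ : α → ℝ) : ℝ := ∑ o, X.w o * φ (X.v o)

open Classical in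
/-- probability -/
noncomputable def Pr (X : FRV α) (φ : α → Prop) : ℝ := X.E (fun a => if φ a then 1 else 0)

theorem E_mono (X : FRV α) {φ ψ : α → ℝ} (h : ∀ a, φ a ≤ ψ a) : X.E φ ≤ X.E ψ :=
  Finset.sum_le_sum fun o _ => mul_le_mul_of_nonneg_left (h _) (X.w_nonneg o)

theorem E_nonneg (X : FRV α) {φ : α → ℝ} (h : ∀ a, 0 ≤ φ a) : 0 ≤ X.E φ :=
  Finset.sum_nonneg fun o _ => mul_nonneg (X.w_nonneg o) (h _)

theorem E_const (X : FRV α) (c : ℝ) : X.E (fun _ => c) = c := by
  unfold E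
  rw [← Finset.sum_mul, X.w_sum, one_mul]

theorem E_add (X : FRV α) (φ ψ : α → ℝ) : X.E (fun a => φ a + ψ a) = X.E φ + X.E ψ := by
  unfold E
  rw [← Finset.sum_add_distrib]
  exact Finset.sum_congr rfl fun o _ => by ring

theorem E_const_mul (X : FRV α) (c : ℝ) (φ : α → ℝ) : X.E (fun a => c * φ a) = c * X.E φ := by
  unfold E
  rw [Finset.mul_sum]
  exact Finset.sum_congr rfl fun o _ => by ring

theorem E_sum (X : FRV α) {ι : Type*} (s : Finset ι) (φ : ι → α → ℝ) :
    X.E (fun a => ∑ i ∈ s, φ i a) = ∑ i ∈ s, X.E (φ i) := by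
  unfold E
  rw [Finset.sum_comm]
  exact Finset.sum_congr rfl fun o _ => by rw [Finset.mul_sum]

/-- some value is at most the expectation -/
theorem exists_le (X : FRV α) (φ : α → ℝ) {c : ℝ} (h : X.E φ ≤ c) : ∃ o, φ (X.v o) ≤ c := by
  by_contra hc
  push Not at hc
  have h1 : ∑ o, X.w o * c < ∑ o, X.w o * φ (X.v o) := by
    have hne : ∃ o, 0 < X.w o := by
      by_contra hn
      push Not at hn
      have : ∑ o, X.w o ≤ 0 := Finset.sum_nonpos fun o _ => hn o
      rw [X.w_sum] at this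
      linarith
    obtain ⟨o, ho⟩ := hne
    refine Finset.sum_lt_sum (fun o _ => mul_le_mul_of_nonneg_left (hc o).le (X.w_nonneg o))
      ⟨o, Finset.mem_univ _, mul_lt_mul_of_pos_left (hc o) ho⟩
  rw [← Finset.sum_mul, X.w_sum, one_mul] at h1
  exact absurd h (not_le.2 h1)

theorem Pr_mono (X : FRV α) {φ ψ : α → Prop} (h : ∀ a, φ a → ψ a) : X.Pr φ ≤ X.Pr ψ := by
  classical
  refine X.E_mono fun a => ?_
  by_cases h1 : φ a
  · simp [h1, h a h1]
  · by_cases h2 : ψ a <;> simp [h1, h2]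

theorem Pr_congr (X : FRV α) {φ ψ : α → Prop} (h : ∀ a, φ a ↔ ψ a) : X.Pr φ = X.Pr ψ :=
  le_antisymm (X.Pr_mono fun a => (h a).1) (X.Pr_mono fun a => (h a).2)

theorem Pr_nonneg (X : FRV α) (φ : α → Prop) : 0 ≤ X.Pr φ := by
  classical
  refine X.E_nonneg fun a => ?_
  by_cases h1 : φ a <;> simp [h1]

theorem Pr_le_one (X : FRV α) (φ : α → Prop) : X.Pr φ ≤ 1 := by
  classical
  have h := X.E_mono (φ := fun a => if φ a then (1:ℝ) else 0) (ψ := fun _ => 1) (fun a => by
    by_cases h1 : φ a <;> simp [h1])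
  rw [X.E_const] at h
  exact h

theorem Pr_true (X : FRV α) {φ : α → Prop} (h : ∀ a, φ a) : X.Pr φ = 1 := by
  classical
  unfold Pr
  simp only [h, if_true]
  exact X.E_const 1

theorem Pr_false (X : FRV α) {φ : α → Prop} (h : ∀ a, ¬ φ a) : X.Pr φ = 0 := by
  classical
  unfold Pr
  simp only [h, if_false]
  exact X.E_const 0

theorem Pr_not (X : FRV α) (φ : α → Prop) : X.Pr (fun a => ¬ φ a) = 1 - X.Pr φ := by
  classical
  have h : X.Pr (fun a => ¬ φ a) + X.Pr φ = 1 := by
    unfold Pr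
    rw [← X.E_add]
    refine (congrArg X.E ?_).trans (X.E_const 1)
    funext a
    by_cases h1 : φ a <;> simp [h1]
  linarith

theorem Pr_or_le (X : FRV α) (φ ψ : α → Prop) : X.Pr (fun a => φ a ∨ ψ a) ≤ X.Pr φ + X.Pr ψ := by
  classical
  unfold Pr
  rw [← X.E_add]
  refine X.E_mono fun a => ?_
  by_cases h1 : φ a <;> by_cases h2 : ψ a <;> simp [h1, h2]

theorem Pr_exists_le (X : FRV α) {ι : Type*} (s : Finset ι) (φ : ι → α → Prop) :
    X.Pr (fun a => ∃ i ∈ s, φ i a) ≤ ∑ i ∈ s, X.Pr (φ i) := by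
  classical
  unfold Pr
  rw [← X.E_sum]
  refine X.E_mono fun a => ?_
  have hn : ∀ i ∈ s, (0:ℝ) ≤ (if φ i a then 1 else 0) := fun i _ => by
    by_cases h : φ i a <;> simp [h]
  by_cases h1 : ∃ i ∈ s, φ i a
  · simp only [h1, if_true]
    obtain ⟨i, hi, hia⟩ := h1
    have := Finset.single_le_sum hn hi
    simpa [hia] using this
  · simp only [h1, if_false]
    exact Finset.sum_nonneg hn

/-- point mass -/
def dirac (a : α) : FRV α where
  Ω := Unit
  w := fun _ => 1
  w_nonneg := fun _ => zero_le_one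
  w_sum := by simp
  v := fun _ => a

theorem E_dirac (a : α) (φ : α → ℝ) : (dirac a).E φ = φ a := by
  unfold E dirac
  simp

/-- image -/
def map (X : FRV α) (g : α → β) : FRV β where
  Ω := X.Ω
  w := X.w
  w_nonneg := X.w_nonneg
  w_sum := X.w_sum
  v := fun o => g (X.v o)

theorem E_map (X : FRV α) (g : α → β) (φ : β → ℝ) : (X.map g).E φ = X.E (fun a => φ (g a)) := rfl

theorem Pr_map (X : FRV α) (g : α → β) (φ : β → Prop) :
    (X.map g).Pr φ = X.Pr (fun a => φ (g a)) := rfl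

/-- mixture -/
def mix (p : ℝ) (h0 : 0 ≤ p) (h1 : p ≤ 1) (X Y : FRV α) : FRV α where
  Ω := X.Ω ⊕ Y.Ω
  w := Sum.elim (fun o => p * X.w o) (fun o => (1 - p) * Y.w o)
  w_nonneg := by
    rintro (o | o)
    · exact mul_nonneg h0 (X.w_nonneg o)
    · exact mul_nonneg (by linarith) (Y.w_nonneg o)
  w_sum := by
    rw [Fintype.sum_sum_type]
    simp only [Sum.elim_inl, Sum.elim_inr]
    rw [← Finset.mul_sum, ← Finset.mul_sum, X.w_sum, Y.w_sum]
    ring
  v := Sum.elim X.v Y.v

theorem E_mix (p : ℝ) (h0 : 0 ≤ p) (h1 : p ≤ 1) (X Y : FRV α) (φ : α → ℝ) :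
    (mix p h0 h1 X Y).E φ = p * X.E φ + (1 - p) * Y.E φ := by
  unfold E mix
  rw [Fintype.sum_sum_type]
  simp only [Sum.elim_inl, Sum.elim_inr]
  rw [Finset.mul_sum, Finset.mul_sum]
  congr 1 <;> exact Finset.sum_congr rfl fun o _ => by ring

theorem Pr_mix (p : ℝ) (h0 : 0 ≤ p) (h1 : p ≤ 1) (X Y : FRV α) (φ : α → Prop) :
    (mix p h0 h1 X Y).Pr φ = p * X.Pr φ + (1 - p) * Y.Pr φ := E_mix _ _ _ _ _ _

/-- independent copies -/
def pow (B : ℕ) (X : FRV α) : FRV (Fin B → α) where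
  Ω := Fin B → X.Ω
  w := fun f => ∏ j, X.w (f j)
  w_nonneg := fun f => Finset.prod_nonneg fun j _ => X.w_nonneg _
  w_sum := by
    classical
    have h := Finset.prod_univ_sum (fun _ : Fin B => (Finset.univ : Finset X.Ω))
      (fun _ o => X.w o)
    rw [Fintype.piFinset_univ] at h
    rw [← h]
    simp [X.w_sum]
  v := fun f j => X.v (f j)

theorem E_pow_prod (B : ℕ) (X : FRV α) (c : Fin B → α → ℝ) :
    (X.pow B).E (fun f => ∏ j, c j (f j)) = ∏ j, X.E (c j) := by
  classical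
  unfold E pow
  have h := Finset.prod_univ_sum (fun _ : Fin B => (Finset.univ : Finset X.Ω))
      (fun j o => X.w o * c j (X.v o))
  rw [Fintype.piFinset_univ] at h
  rw [h]
  exact Finset.sum_congr rfl fun f _ => by rw [← Finset.prod_mul_distrib]

theorem E_pow_single (B : ℕ) (X : FRV α) (φ : α → ℝ) (j : Fin B) :
    (X.pow B).E (fun f => φ (f j)) = X.E φ := by
  classical
  have h := X.E_pow_prod B (fun i a => if i = j then φ a else 1)
  have h1 : (fun f : Fin B → α => ∏ i, (if i = j then φ (f i) else 1)) = fun f => φ (f j) := by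
    funext f
    rw [Finset.prod_ite_eq' Finset.univ j (fun i => φ (f i))]
    simp
  have h2 : ∏ i, X.E (fun a => if i = j then φ a else 1) = X.E φ := by
    rw [Finset.prod_eq_single j]
    · simp
    · intro i _ hi
      simp [hi, X.E_const]
    · intro h
      exact absurd (Finset.mem_univ _) h
  rw [← h2, ← h, h1]

theorem E_pow_pair (B : ℕ) (X : FRV α) (φ ψ : α → ℝ) {j j' : Fin B} (hj : j' ≠ j) :
    (X.pow B).E (fun f => φ (f j) * ψ (f j')) = X.E φ * X.E ψ := by
  classical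
  have h := X.E_pow_prod B (fun i a => (if i = j then φ a else 1) * (if i = j' then ψ a else 1))
  have h1 : (fun f : Fin B → α => ∏ i, ((if i = j then φ (f i) else 1) *
      (if i = j' then ψ (f i) else 1))) = fun f => φ (f j) * ψ (f j') := by
    funext f
    rw [Finset.prod_mul_distrib, Finset.prod_ite_eq' Finset.univ j (fun i => φ (f i)),
      Finset.prod_ite_eq' Finset.univ j' (fun i => ψ (f i))]
    simp
  have h2 : ∏ i, X.E (fun a => (if i = j then φ a else 1) * (if i = j' then ψ a else 1)) =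
      X.E φ * X.E ψ := by
    rw [← Finset.mul_prod_erase Finset.univ _ (Finset.mem_univ j),
      ← Finset.mul_prod_erase (Finset.univ.erase j) _ (Finset.mem_erase.2 ⟨hj, Finset.mem_univ j'⟩)]
    rw [Finset.prod_eq_one]
    · simp only [if_true, hj, hj.symm, if_false, one_mul, mul_one]
    · intro i hi
      rw [Finset.mem_erase, Finset.mem_erase] at hi
      simp [hi.1, hi.2.1, X.E_const]
  rw [← h2, ← h, h1]

theorem Pr_pow_single (B : ℕ) (X : FRV α) (φ : α → Prop) (j : Fin B) :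
    (X.pow B).Pr (fun f => φ (f j)) = X.Pr φ := by
  classical
  exact X.E_pow_single B (fun a => if φ a then 1 else 0) j

theorem Pr_pow_pair (B : ℕ) (X : FRV α) (φ ψ : α → Prop) {j j' : Fin B} (hj : j' ≠ j) :
    (X.pow B).Pr (fun f => φ (f j) ∧ ψ (f j')) = X.Pr φ * X.Pr ψ := by
  classical
  unfold Pr
  rw [← X.E_pow_pair B (fun a => if φ a then 1 else 0) (fun a => if ψ a then 1 else 0) hj]
  congr 1
  funext f
  by_cases h1 : φ (f j) <;> by_cases h2 : ψ (f j') <;> simp [h1, h2]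

end FRV

end Crest.Agent.ES
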