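import Crest.Agent.ES.Step

/-!
# Row 107: the induction step and the iteration, part 2
-/

set_option autoImplicit false

namespace Crest.Agent.ES

open Finset Tr

variable {B : ℕ}

theorem step_bound [NeZero B] {q η β p : ℝ} {b K D0 M k : ℕ} {P : FRV (Tr B)} {G : Finset ℝ}
    (hq0 : 0 < q) (hq1 : q < 1) (hb : 4 ≤ b) (hB : B = b * b) (hbq : 1 < b * q)
    (hη0 : 0 ≤ η) (hη1 : η ≤ 1) (h0 : 0 ≤ p) (h1 : p ≤ 1)
    (hG : ∀ τ ∈ G, q ≤ |τ|)
    (hG' : ∀ σ : ℝ, q ≤ |σ| → |σ| ≤ 1 → ∃ τ ∈ G, |σ - τ| < |τ| / (B:ℝ) ^ (K + M + 1))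
    (hP : Good q η β K D0 P) :
    Good q η ((1 - (1 - p) ^ k) * β + G.card * (1 - η * (1 - (1 - p) ^ M) / 2) ^ k)
      (K + (k + M)) (D0 + k) (outer P p h0 h1 (k + M)) := by
  have hbR : (4:ℝ) ≤ b := by exact_mod_cast hb
  have hBR : (B:ℝ) = b * b := by rw [hB]; push_cast; ring
  have hBb : (b:ℝ) < B * q := by
    rw [hBR]
    nlinarith
  have hBq : 1 ≤ (B:ℝ) * q := by linarith
  have h2 : 0 ≤ 1 - p := by linarith
  have h2' : 1 - p ≤ 1 := by linarith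
  set r := η * (1 - (1 - p) ^ M) with hr
  have hpM0 : 0 ≤ (1 - p) ^ M := pow_nonneg h2 _
  have hpM1 : (1 - p) ^ M ≤ 1 := pow_le_one₀ h2 h2'
  have hr0 : 0 ≤ r := mul_nonneg hη0 (by linarith)
  have hr1 : r ≤ 1 := by
    rw [hr]
    nlinarith
  refine ⟨outer_hit hP.hit _, outer_mass hP.mass _, fun D hD => ?_⟩
  have hlucky := outer_lucky (P := P) (h0 := h0) (h1 := h1) hq0 hq1 (by omega : 1 ≤ b) hBb hr1
    (fun T hT => outer_hit' (P := P) (h0 := h0) (h1 := h1) hP.hit M T hT) k (k + M) (le_refl _)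
  have hstop := outer_stopped (P := P) (h0 := h0) (h1 := h1) hq0 hq1 hBq k (k + M) (by omega)
  have key : ∀ x ∈ Set.Ico (0:ℝ) 1, (outer P p h0 h1 (k + M)).Pr (fun t => ¬ Kill q t x) ≤
      aF P q p k x + G.card * gF B b r k x := by
    intro x hx
    have c1 : (outer P p h0 h1 (k + M)).Pr (fun t => ¬ Kill q t x) ≤
        (outer P p h0 h1 (k + M)).Pr (fun t => (¬ Lk k t x ∧ ¬ Kill q t x) ∨
          ∃ τ ∈ G, (Lk k t x ∧ ¬ Hit q b (K + M + 1) k t x τ)) := by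
      refine FRV.Pr_mono _ fun t ht => ?_
      by_cases hL : Lk k t x
      · right
        by_contra hc
        push Not at hc
        refine ht fun σ hσ hσ' => ?_
        obtain ⟨τ, hτ, hτσ⟩ := hG' σ hσ hσ'
        exact hit_kill hq0 hq1 (by omega : 1 ≤ b) k t x τ hx (hG τ hτ) (hc τ hτ hL) σ hτσ
      · exact Or.inl ⟨hL, ht⟩
    refine c1.trans ((FRV.Pr_or_le _ _ _).trans (add_le_add (hstop x hx) ?_))
    refine (FRV.Pr_exists_le _ _ _).trans ?_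
    have c2 : ∀ τ ∈ G, (outer P p h0 h1 (k + M)).Pr
        (fun t => Lk k t x ∧ ¬ Hit q b (K + M + 1) k t x τ) ≤ gF B b r k x := by
      intro τ hτ
      refine (hlucky x hx τ (hG τ hτ)).trans ?_
      have := mul_le_mul_of_nonneg_right (pow_le_one₀ (n := k) h2 h2') (gF_nonneg (B := B) (b := b) hr1 k x)
      rwa [one_mul] at this
    have := Finset.sum_le_card_nsmul G _ _ c2
    rwa [nsmul_eq_mul] at this
  refine (Av_mono D key).trans ?_
  rw [Av_add, Av_const_mul]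
  exact add_le_add (Av_aF hP.kill h0 h1 k D hD)
    (mul_le_mul_of_nonneg_left (Av_gF hb hB hr0 hr1 k D (by omega)) (Nat.cast_nonneg _))

theorem pow_quarter {M' : ℕ} (hM' : 1 ≤ M') : (1 / 4 : ℝ) ≤ (1 - 1 / ((2 * M' : ℕ) : ℝ)) ^ (2 * M') := by
  have hM : (1:ℝ) ≤ M' := by exact_mod_cast hM'
  have h1 : (1:ℝ) / 2 ≤ (1 - 1 / ((2 * M' : ℕ) : ℝ)) ^ M' := by
    have h := one_add_mul_le_pow (a := -(1 / ((2 * M' : ℕ) : ℝ))) (by
      have : 1 / ((2 * M' : ℕ) : ℝ) ≤ 1 := by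
        rw [div_le_one (by positivity)]
        push_cast
        linarith
      linarith) M'
    have e : 1 + (M':ℝ) * -(1 / ((2 * M' : ℕ) : ℝ)) = 1 / 2 := by
      push_cast
      field_simp
      ring
    rw [e] at h
    exact h.trans_eq (by ring)
  have h2 : (1 - 1 / ((2 * M' : ℕ) : ℝ)) ^ (2 * M') =
      (1 - 1 / ((2 * M' : ℕ) : ℝ)) ^ M' * (1 - 1 / ((2 * M' : ℕ) : ℝ)) ^ M' := by
    rw [two_mul, pow_add]
  rw [h2]
  nlinarith

theorem pow_half {M : ℕ} (hM : 1 ≤ M) : (1 - 1 / (M : ℝ)) ^ M ≤ 1 / 2 := by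
  have hM' : (1:ℝ) ≤ M := by exact_mod_cast hM
  have h1 : 1 - 1 / (M:ℝ) ≤ Real.exp (-(1 / (M:ℝ))) := by
    have := Real.add_one_le_exp (-(1 / (M:ℝ)))
    linarith
  have h0 : 0 ≤ 1 - 1 / (M:ℝ) := by
    have : 1 / (M:ℝ) ≤ 1 := by
      rw [div_le_one (by positivity)]
      exact hM'
    linarith
  have h2 := pow_le_pow_left₀ h0 h1 M
  rw [← Real.exp_nat_mul] at h2
  have e : (M:ℝ) * -(1 / (M:ℝ)) = -1 := by field_simp
  rw [e] at h2
  refine h2.trans ?_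
  rw [Real.exp_neg]
  have h3 : (2:ℝ) ≤ Real.exp 1 := by
    have := Real.add_one_le_exp 1
    linarith
  rw [inv_eq_one_div]
  exact one_div_le_one_div_of_le (by norm_num) h3

/-- the induction step -/
theorem step_good [NeZero B] {q η : ℝ} {b : ℕ}
    (hq0 : 0 < q) (hq1 : q < 1) (hb : 4 ≤ b) (hB : B = b * b) (hbq : 1 < b * q)
    (hη0 : 0 < η) (hη1 : η ≤ 1) :
    ∃ π : ℝ, 0 < π ∧ π ≤ 1 ∧ ∀ (β : ℝ) (K D0 : ℕ) (P : FRV (Tr B)), 0 ≤ β → Good q η β K D0 P →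
      ∀ δ : ℝ, 0 < δ → ∃ (K' D0' : ℕ) (P' : FRV (Tr B)), Good q η ((1 - π) * β + δ) K' D0' P' := by
  -- choose lam
  obtain ⟨lam, hlam⟩ := exists_pow_lt_of_lt_one (show (0:ℝ) < 1 / (2 * B) by
    have := B_pos (B := B); positivity) (show 1 - η / 4 < 1 by linarith)
  refine ⟨(1 / 4) ^ lam, by positivity, pow_le_one₀ (by norm_num) (by norm_num), ?_⟩
  intro β K D0 P hβ hP δ hδ
  have hBpos := B_pos (B := B)
  have hB1 := one_le_B (B := B)
  -- choose M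
  set C : ℝ := 2 * ((B:ℝ) ^ (K + 1) / q + 1) with hC
  have hCpos : 0 < C := by positivity
  obtain ⟨M', hM'⟩ := exists_pow_lt_of_lt_one (div_pos hδ hCpos) (show (1/4:ℝ) < 1 by norm_num)
  set M := 2 * (M' + 1) with hM
  have hM1 : 1 ≤ M := by omega
  have hMR : (1:ℝ) ≤ M := by exact_mod_cast hM1
  set p : ℝ := 1 / (M:ℝ) with hp
  have h0 : 0 ≤ p := by positivity
  have h1 : p ≤ 1 := by
    rw [hp, div_le_one (by positivity)]
    exact hMR
  obtain ⟨G, hGc, hG, hG'⟩ := exists_grid (q := q) (N := (B:ℝ) ^ (K + M + 1)) hq0 (by positivity)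
  have hres := step_bound (k := lam * M) hq0 hq1 hb hB hbq hη0.le hη1 h0 h1 hG hG' hP
  refine ⟨_, _, _, ⟨hres.hit, hres.mass, fun D hD => (hres.kill D hD).trans ?_⟩⟩
  have hpM : (1 - p) ^ M ≤ 1 / 2 := pow_half hM1
  have hpM' : (1 / 4 : ℝ) ≤ (1 - p) ^ M := pow_quarter (M' := M' + 1) (by omega)
  have hpi : (1 / 4 : ℝ) ^ lam ≤ (1 - p) ^ (lam * M) := by
    rw [mul_comm lam M, pow_mul]
    exact pow_le_pow_left₀ (by norm_num) hpM' _
  refine add_le_add ?_ ?_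
  · exact mul_le_mul_of_nonneg_right (by linarith) hβ
  · have hr : 1 - η * (1 - (1 - p) ^ M) / 2 ≤ 1 - η / 4 := by nlinarith
    have hr' : 0 ≤ 1 - η * (1 - (1 - p) ^ M) / 2 := by
      have : 0 ≤ (1 - p) ^ M := pow_nonneg (by linarith) _
      nlinarith
    have h3 : (1 - η * (1 - (1 - p) ^ M) / 2) ^ (lam * M) ≤ (1 / (2 * (B:ℝ))) ^ M := by
      refine (pow_le_pow_left₀ hr' hr _).trans ?_
      rw [pow_mul]
      exact pow_le_pow_left₀ (pow_nonneg (by linarith) _) hlam.le _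
    have h4 : (G.card : ℝ) ≤ C * (B:ℝ) ^ M := by
      refine hGc.trans ?_
      rw [hC]
      have e : (B:ℝ) ^ (K + M + 1) = (B:ℝ) ^ (K + 1) * (B:ℝ) ^ M := by
        rw [← pow_add]; congr 1; ring
      rw [e]
      have h5 : (1:ℝ) ≤ (B:ℝ) ^ M := one_le_pow₀ hB1
      have e2 : 2 * ((B:ℝ) ^ (K + 1) / q + 1) * (B:ℝ) ^ M =
        2 * ((B:ℝ) ^ (K + 1) * (B:ℝ) ^ M / q + (B:ℝ) ^ M) := by ring
      rw [e2]
      linarith
    calc (G.card : ℝ) * (1 - η * (1 - (1 - p) ^ M) / 2) ^ (lam * M)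
        ≤ (C * (B:ℝ) ^ M) * (1 / (2 * (B:ℝ))) ^ M :=
          mul_le_mul h4 h3 (pow_nonneg hr' _) (by positivity)
      _ = C * (1 / 2) ^ M := by
          rw [mul_assoc, ← mul_pow]
          congr 2
          field_simp
      _ ≤ C * (1 / 4) ^ M' := by
          refine mul_le_mul_of_nonneg_left ?_ hCpos.le
          rw [hM, pow_mul]
          norm_num
          exact pow_le_pow_of_le_one (by norm_num) (by norm_num) (by omega)
      _ ≤ δ := by
          have := mul_le_mul_of_nonneg_left hM'.le hCpos.le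
          rwa [mul_div_cancel₀ _ hCpos.ne'] at this

/-- the iteration -/
theorem exists_good [NeZero B] {q η : ℝ} {b : ℕ}
    (hq0 : 0 < q) (hq1 : q < 1) (hb : 4 ≤ b) (hB : B = b * b) (hbq : 1 < b * q)
    (hη0 : 0 < η) (hη1 : η ≤ 1) {ε : ℝ} (hε : 0 < ε) :
    ∃ (K D0 : ℕ) (P : FRV (Tr B)), Good q η ε K D0 P := by
  obtain ⟨π, hπ0, hπ1, hstep⟩ := step_good (B := B) hq0 hq1 hb hB hbq hη0 hη1
  have key : ∀ n : ℕ, ∃ (K D0 : ℕ) (P : FRV (Tr B)),
      Good q η ((1 - π) ^ n + ε / 2) K D0 P := by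
    intro n
    induction n with
    | zero =>
      have h := good_base (B := B) (q := q) hη0.le hη1
      exact ⟨0, 0, _, h.hit, h.mass, fun D hD => (h.kill D hD).trans (by rw [pow_zero]; linarith)⟩
    | succ n ih =>
      obtain ⟨K, D0, P, hP⟩ := ih
      have h0 : 0 ≤ (1 - π) ^ n + ε / 2 := by
        have : 0 ≤ (1 - π) ^ n := pow_nonneg (by linarith) _
        linarith
      obtain ⟨K', D0', P', hP'⟩ := hstep _ K D0 P h0 hP (π * (ε / 2)) (by positivity)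
      refine ⟨K', D0', P', ?_⟩
      have e : (1 - π) * ((1 - π) ^ n + ε / 2) + π * (ε / 2) = (1 - π) ^ (n + 1) + ε / 2 := by
        rw [pow_succ]; ring
      rw [e] at hP'
      exact hP'
  obtain ⟨n, hn⟩ := exists_pow_lt_of_lt_one (show (0:ℝ) < ε / 2 by linarith)
    (show 1 - π < 1 by linarith)
  obtain ⟨K, D0, P, hP⟩ := key n
  exact ⟨K, D0, P, hP.hit, hP.mass, fun D hD => (hP.kill D hD).trans (by linarith)⟩

end Crest.Agent.ES
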