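import Mathlib

/-!
# Row 107: B-ary trees, killing
-/

set_option autoImplicit false

namespace Crest.Agent.ES

open Finset

/-- B-ary trees: `full`/`empty` leaves describe a union of B-adic cells of `[0,1)`; `mark` is a
bookkeeping constructor (node stopped by the outer process). -/
inductive Tr (B : ℕ) : Type
  | empty : Tr B
  | full : Tr B
  | mark : Tr B → Tr B
  | node : (Fin B → Tr B) → Tr B

/-- first digit -/
noncomputable def idx (B : ℕ) [NeZero B] (x : ℝ) : Fin B := Fin.ofNat B ⌊(B:ℝ) * x⌋₊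

/-- shifted point -/
noncomputable def fr (B : ℕ) [NeZero B] (x : ℝ) : ℝ := (B:ℝ) * x - ((idx B x : Fin B) : ℕ)

variable {B : ℕ}

theorem B_pos [NeZero B] : (0:ℝ) < B := Nat.cast_pos.2 (Nat.pos_of_ne_zero (NeZero.ne B))

theorem one_le_B [NeZero B] : (1:ℝ) ≤ B := by
  exact_mod_cast Nat.pos_of_ne_zero (NeZero.ne B)

theorem idx_val [NeZero B] {x : ℝ} (hx : x ∈ Set.Ico (0:ℝ) 1) :
    ((idx B x : Fin B) : ℕ) = ⌊(B:ℝ) * x⌋₊ := by
  unfold idx
  rw [Fin.val_ofNat]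
  apply Nat.mod_eq_of_lt
  rw [Nat.floor_lt (mul_nonneg B_pos.le hx.1)]
  have := mul_lt_mul_of_pos_left hx.2 (B_pos (B := B))
  simpa using this

theorem fr_mem [NeZero B] {x : ℝ} (hx : x ∈ Set.Ico (0:ℝ) 1) : fr B x ∈ Set.Ico (0:ℝ) 1 := by
  unfold fr
  rw [idx_val hx]
  have h0 : 0 ≤ (B:ℝ) * x := mul_nonneg B_pos.le hx.1
  have h1 := Nat.floor_le h0
  have h2 := Nat.lt_floor_add_one ((B:ℝ) * x)
  exact ⟨by linarith, by linarith⟩

/-- the point `z` in cell `j` -/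
noncomputable def cell (B : ℕ) (j : Fin B) (z : ℝ) : ℝ := (((j : Fin B) : ℕ) + z) / B

theorem cell_mem [NeZero B] (j : Fin B) {z : ℝ} (hz : z ∈ Set.Ico (0:ℝ) 1) :
    cell B j z ∈ Set.Ico (0:ℝ) 1 := by
  unfold cell
  have hj : (((j : Fin B) : ℕ) : ℝ) + 1 ≤ B := by exact_mod_cast j.2
  refine ⟨div_nonneg (add_nonneg (Nat.cast_nonneg _) hz.1) B_pos.le, ?_⟩
  rw [div_lt_one B_pos]
  linarith [hz.2]

theorem idx_cell [NeZero B] (j : Fin B) {z : ℝ} (hz : z ∈ Set.Ico (0:ℝ) 1) :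
    idx B (cell B j z) = j := by
  apply Fin.ext
  rw [idx_val (cell_mem j hz)]
  unfold cell
  rw [mul_div_cancel₀ _ (B_pos (B := B)).ne']
  rw [Nat.floor_eq_iff (add_nonneg (Nat.cast_nonneg _) hz.1)]
  exact ⟨by linarith [hz.1], by linarith [hz.2]⟩

theorem fr_cell [NeZero B] (j : Fin B) {z : ℝ} (hz : z ∈ Set.Ico (0:ℝ) 1) :
    fr B (cell B j z) = z := by
  unfold fr
  rw [idx_cell j hz]
  unfold cell
  rw [mul_div_cancel₀ _ (B_pos (B := B)).ne']
  ring

namespace Tr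

/-- union of the enlarged full cells -/
def S (a : ℝ) : Tr B → Set ℝ
  | .empty => ∅
  | .full => Set.Ioo (-a) (1 + a)
  | .mark t => S a t
  | .node f => {y | ∃ j : Fin B, (B:ℝ) * y - ((j : Fin B) : ℕ) ∈ S a (f j)}

/-- `y` is in a full cell of depth at most `m` -/
def mem [NeZero B] : Tr B → ℕ → ℝ → Prop
  | .empty, _, _ => False
  | .full, _, _ => True
  | .mark t, m, y => mem t m y
  | .node _, 0, _ => False
  | .node f, m + 1, y => mem (f (idx B y)) m (fr B y)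

/-- measure of the union of the full cells -/
noncomputable def mu : Tr B → ℝ
  | .empty => 0
  | .full => 1
  | .mark t => mu t
  | .node f => (∑ j, mu (f j)) / B

/-- depth -/
def depth : Tr B → ℕ
  | .empty => 0
  | .full => 0
  | .mark t => depth t
  | .node f => (Finset.univ.sup fun j => depth (f j)) + 1

/-- the outer process does not stop along `x` during the first `k` levels -/
def Lk [NeZero B] : ℕ → Tr B → ℝ → Prop
  | 0, _, _ => True
  | k + 1, .node f, x => Lk k (f (idx B x)) (fr B x)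
  | _ + 1, _, _ => False

end Tr

open Tr

/-- `x` is killed by `t` -/
def Kill (q : ℝ) (t : Tr B) (x : ℝ) : Prop :=
  ∀ σ : ℝ, q ≤ |σ| → |σ| ≤ 1 → ∃ n : ℕ, x + σ * q ^ n ∈ S 1 t

theorem kill_mark (q : ℝ) (t : Tr B) (x : ℝ) : Kill q (.mark t) x ↔ Kill q t x := Iff.rfl

theorem exists_pow {q L c : ℝ} (h0 : 0 < q) (h1 : q < 1) (hL : 0 < L) (hc : q * L ≤ c) :
    ∃ n : ℕ, q * L ≤ c * q ^ n ∧ c * q ^ n ≤ L := by
  classical
  have hc0 : 0 < c := lt_of_lt_of_le (mul_pos h0 hL) hc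
  have hex : ∃ n : ℕ, c * q ^ n ≤ L := by
    obtain ⟨n, hn⟩ := exists_pow_lt_of_lt_one (div_pos hL hc0) h1
    refine ⟨n, ?_⟩
    have := mul_le_mul_of_nonneg_left hn.le hc0.le
    rwa [mul_div_cancel₀ _ hc0.ne'] at this
  refine ⟨Nat.find hex, ?_, Nat.find_spec hex⟩
  rcases Nat.eq_zero_or_pos (Nat.find hex) with h | h
  · rw [h, pow_zero, mul_one]
    exact hc
  · have h2 := Nat.find_min hex (Nat.sub_lt h one_pos)
    push Not at h2
    have h3 : c * q ^ (Nat.find hex) = q * (c * q ^ (Nat.find hex - 1)) := by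
      conv_lhs => rw [← Nat.sub_add_cancel h]
      rw [pow_succ]
      ring
    rw [h3]
    exact mul_le_mul_of_nonneg_left h2.le h0.le

theorem mem_mono [NeZero B] (t : Tr B) : ∀ {m m' : ℕ} {y : ℝ}, m ≤ m' → mem t m y → mem t m' y := by
  induction t with
  | empty => intro m m' y _ h; exact h
  | full => intro m m' y _ h; exact h
  | mark t ih => intro m m' y hm h; exact ih hm h
  | node f ih =>
    intro m m' y hm h
    cases m with
    | zero => exact h.elim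
    | succ m =>
      cases m' with
      | zero => omega
      | succ m' => exact ih _ (Nat.le_of_succ_le_succ hm) h

theorem mem_S [NeZero B] (t : Tr B) : ∀ {m : ℕ} {y y' : ℝ}, y ∈ Set.Ico (0:ℝ) 1 → mem t m y →
    |y' - y| < 1 / (B:ℝ) ^ m → y' ∈ S 1 t := by
  induction t with
  | empty => intro m y y' _ h; exact h.elim
  | full =>
    intro m y y' hy _ h
    have h1 : 1 / (B:ℝ) ^ m ≤ 1 := by
      rw [div_le_one (pow_pos B_pos m)]
      exact one_le_pow₀ one_le_B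
    have h2 := abs_lt.1 (h.trans_le h1)
    show y' ∈ Set.Ioo (-1:ℝ) (1 + 1)
    exact ⟨by linarith [hy.1], by linarith [hy.2]⟩
  | mark t ih => intro m y y' hy h h'; exact ih hy h h'
  | node f ih =>
    intro m y y' hy h h'
    cases m with
    | zero => exact h.elim
    | succ m =>
      refine ⟨idx B y, ih _ (fr_mem hy) h ?_⟩
      have e : (B:ℝ) * y' - ((idx B y : Fin B) : ℕ) - fr B y = B * (y' - y) := by
        unfold fr; ring
      rw [e, abs_mul, abs_of_pos B_pos]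
      rw [lt_div_iff₀ (pow_pos B_pos _)] at h' ⊢
      rw [pow_succ] at h'
      linarith

theorem S_depth [NeZero B] (t : Tr B) : ∀ {D : ℕ} {y y' : ℝ}, depth t ≤ D → y ∈ S 1 t →
    |y' - y| < 1 / (B:ℝ) ^ D → y' ∈ S 2 t := by
  induction t with
  | empty => intro m y y' _ h; exact h.elim
  | full =>
    intro m y y' _ hy h
    have h1 : 1 / (B:ℝ) ^ m ≤ 1 := by
      rw [div_le_one (pow_pos B_pos m)]
      exact one_le_pow₀ one_le_B
    have h2 := abs_lt.1 (h.trans_le h1)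
    have hy' : y ∈ Set.Ioo (-1:ℝ) (1 + 1) := hy
    show y' ∈ Set.Ioo (-2:ℝ) (1 + 2)
    exact ⟨by linarith [hy'.1], by linarith [hy'.2]⟩
  | mark t ih => intro m y y' hy h h'; exact ih hy h h'
  | node f ih =>
    intro D y y' hD hy h'
    obtain ⟨j, hj⟩ := hy
    have hD' : (Finset.univ.sup fun j => depth (f j)) + 1 ≤ D := hD
    obtain ⟨D, rfl⟩ : ∃ D', D = D' + 1 := ⟨D - 1, by omega⟩
    have hjD : depth (f j) ≤ D :=
      (Finset.le_sup (f := fun j => depth (f j)) (Finset.mem_univ j)).trans (by omega)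
    refine ⟨j, ih j hjD hj ?_⟩
    have e : (B:ℝ) * y' - ((j : Fin B) : ℕ) - (B * y - ((j : Fin B) : ℕ)) = B * (y' - y) := by
      ring
    rw [e, abs_mul, abs_of_pos B_pos]
    rw [lt_div_iff₀ (pow_pos B_pos _)] at h' ⊢
    rw [pow_succ] at h'
    linarith

theorem kill_node [NeZero B] {q : ℝ} (h0 : 0 < q) (h1 : q < 1) (hBq : 1 ≤ B * q)
    {f : Fin B → Tr B} {x : ℝ} (h : Kill q (f (idx B x)) (fr B x)) : Kill q (.node f) x := by
  intro σ hσ _
  have h2 : q * 1 ≤ B * |σ| := by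
    have := mul_le_mul_of_nonneg_left hσ (B_pos (B := B)).le
    linarith
  obtain ⟨n0, hn0, hn0'⟩ := exists_pow h0 h1 one_pos h2
  have h3 : |B * σ * q ^ n0| = B * |σ| * q ^ n0 := by
    rw [abs_mul, abs_mul, abs_of_pos (B_pos (B := B)), abs_of_pos (pow_pos h0 _)]
  obtain ⟨n, hn⟩ := h (B * σ * q ^ n0) (by rw [h3]; linarith) (by rw [h3]; exact hn0')
  refine ⟨n0 + n, idx B x, ?_⟩
  have e : (B:ℝ) * (x + σ * q ^ (n0 + n)) - ((idx B x : Fin B) : ℕ) =
      fr B x + B * σ * q ^ n0 * q ^ n := by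
    unfold fr
    rw [pow_add]
    ring
  rw [e]
  exact hn

open Classical in
/-- exponent with `q / b ≤ |τ| q ^ n ≤ 1 / b` -/
noncomputable def nn (q : ℝ) (b : ℕ) (τ : ℝ) : ℕ :=
  if h : ∃ n : ℕ, q * (1 / (b:ℝ)) ≤ |τ| * q ^ n ∧ |τ| * q ^ n ≤ 1 / (b:ℝ) then h.choose else 0

theorem nn_spec {q : ℝ} {b : ℕ} {τ : ℝ} (h0 : 0 < q) (h1 : q < 1) (hb : 1 ≤ b) (hτ : q ≤ |τ|) :
    q * (1 / (b:ℝ)) ≤ |τ| * q ^ (nn q b τ) ∧ |τ| * q ^ (nn q b τ) ≤ 1 / (b:ℝ) := by
  have hb' : (1:ℝ) ≤ b := by exact_mod_cast hb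
  have hL : (0:ℝ) < 1 / b := by positivity
  have h : ∃ n : ℕ, q * (1 / (b:ℝ)) ≤ |τ| * q ^ n ∧ |τ| * q ^ n ≤ 1 / (b:ℝ) := by
    refine exists_pow h0 h1 hL (le_trans ?_ hτ)
    have : 1 / (b:ℝ) ≤ 1 := by
      rw [div_le_one (by linarith)]
      exact hb'
    nlinarith
  unfold nn
  rw [dif_pos h]
  exact h.choose_spec

/-- some point of the progression of `x` with scale `τ` hits a coarse full cell branching off the
path of `x` -/
def Hit [NeZero B] (q : ℝ) (b m : ℕ) : ℕ → Tr B → ℝ → ℝ → Prop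
  | 0, _, _, _ => False
  | k + 1, .node f, x, τ =>
      (x ∈ Set.Ico (1 / (b:ℝ)) (1 - 1 / (b:ℝ)) ∧ mem (.node f) m (x + τ * q ^ (nn q b τ))) ∨
        Hit q b m k (f (idx B x)) (fr B x) (B * τ)
  | _ + 1, _, _, _ => False

theorem y_mem {q : ℝ} {b : ℕ} {x τ : ℝ} (h0 : 0 < q) (h1 : q < 1) (hb : 1 ≤ b) (hτ : q ≤ |τ|)
    (hx : x ∈ Set.Ico (1 / (b:ℝ)) (1 - 1 / (b:ℝ))) :
    x + τ * q ^ (nn q b τ) ∈ Set.Ico (0:ℝ) 1 := by
  have h := (nn_spec h0 h1 hb hτ).2
  have h2 : |τ * q ^ (nn q b τ)| ≤ 1 / (b:ℝ) := by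
    rw [abs_mul, abs_of_pos (pow_pos h0 _)]
    exact h
  have h3 := abs_le.1 h2
  exact ⟨by linarith [hx.1], by linarith [hx.2]⟩

theorem y_idx [NeZero B] {q : ℝ} {b : ℕ} {x τ : ℝ} (h0 : 0 < q) (h1 : q < 1) (hb : 1 ≤ b)
    (hB : (b:ℝ) < B * q) (hτ : q ≤ |τ|) (hx : x ∈ Set.Ico (0:ℝ) 1)
    (hy : x + τ * q ^ (nn q b τ) ∈ Set.Ico (0:ℝ) 1) :
    idx B (x + τ * q ^ (nn q b τ)) ≠ idx B x := by
  intro h
  have h2 := (nn_spec h0 h1 hb hτ).1
  have hb' : (0:ℝ) < b := by exact_mod_cast hb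
  have h3 : 1 < B * |τ * q ^ (nn q b τ)| := by
    rw [abs_mul, abs_of_pos (pow_pos h0 _)]
    have h4 : 1 < B * (q * (1 / (b:ℝ))) := by
      rw [mul_one_div, ← mul_div_assoc, lt_div_iff₀ hb']
      linarith
    exact h4.trans_le (mul_le_mul_of_nonneg_left h2 B_pos.le)
  have h5 := fr_mem (B := B) hx
  have h6 := fr_mem (B := B) hy
  have e : fr B (x + τ * q ^ (nn q b τ)) - fr B x = B * (τ * q ^ (nn q b τ)) := by
    unfold fr
    rw [h]
    ring
  have h7 : |fr B (x + τ * q ^ (nn q b τ)) - fr B x| < 1 := by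
    rw [abs_lt]
    exact ⟨by linarith [h5.2, h6.1], by linarith [h5.1, h6.2]⟩
  rw [e, abs_mul, abs_of_pos B_pos] at h7
  linarith

theorem hit_kill [NeZero B] {q : ℝ} {b m : ℕ} (h0 : 0 < q) (h1 : q < 1) (hb : 1 ≤ b) (k : ℕ) :
    ∀ (t : Tr B) (x τ : ℝ), x ∈ Set.Ico (0:ℝ) 1 → q ≤ |τ| → Hit q b m k t x τ →
      ∀ τ' : ℝ, |τ' - τ| < |τ| / (B:ℝ) ^ m → ∃ n : ℕ, x + τ' * q ^ n ∈ S 1 t := by
  induction k with
  | zero => intro t x τ _ _ h; exact h.elim
  | succ k ih =>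
    intro t x τ hx hτ h τ' hτ'
    cases t with
    | empty => exact h.elim
    | full => exact h.elim
    | mark t => exact h.elim
    | node f =>
      rcases h with ⟨hg, hm⟩ | h
      · refine ⟨nn q b τ, mem_S _ (y_mem h0 h1 hb hτ hg) hm ?_⟩
        have hb' : (1:ℝ) ≤ b := by exact_mod_cast hb
        have h2 := (nn_spec h0 h1 hb hτ).2
        have h3 : |τ| * q ^ (nn q b τ) ≤ 1 := h2.trans (by
          rw [div_le_one (by linarith)]
          exact hb')
        have e : x + τ' * q ^ nn q b τ - (x + τ * q ^ nn q b τ) =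
            (τ' - τ) * q ^ nn q b τ := by ring
        rw [e, abs_mul, abs_of_pos (pow_pos h0 _)]
        have hp : (0:ℝ) < B ^ m := pow_pos B_pos m
        calc |τ' - τ| * q ^ nn q b τ < |τ| / (B:ℝ) ^ m * q ^ nn q b τ :=
              mul_lt_mul_of_pos_right hτ' (pow_pos h0 _)
          _ = |τ| * q ^ nn q b τ / (B:ℝ) ^ m := by ring
          _ ≤ 1 / (B:ℝ) ^ m := by
              gcongr
      · have hBτ : |(B:ℝ) * τ| = B * |τ| := by rw [abs_mul, abs_of_pos B_pos]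
        obtain ⟨n, hn⟩ := ih (f (idx B x)) (fr B x) (B * τ) (fr_mem hx)
          (by
            rw [hBτ]
            have := mul_le_mul_of_nonneg_right (one_le_B (B := B)) (abs_nonneg τ)
            linarith) h (B * τ')
          (by
            rw [hBτ, ← mul_sub, abs_mul, abs_of_pos B_pos, mul_div_assoc]
            exact mul_lt_mul_of_pos_left hτ' B_pos)
        refine ⟨n, idx B x, ?_⟩
        have e : (B:ℝ) * (x + τ' * q ^ n) - ((idx B x : Fin B) : ℕ) =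
            fr B x + B * τ' * q ^ n := by
          unfold fr
          ring
        rw [e]
        exact hn

end Crest.Agent.ES
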