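import Crest.Agent.ES.Frv
import Crest.Agent.ES.Tree

/-!
# Row 107: averages over points, the outer stopping process
-/

set_option autoImplicit false

namespace Crest.Agent.ES

open Finset Tr

variable {B : ℕ}

/-- average over the left end points of the cells of depth `D` -/
noncomputable def Av (B : ℕ) : ℕ → (ℝ → ℝ) → ℝ
  | 0, f => f 0
  | D + 1, f => (∑ j : Fin B, Av B D (fun z => f (cell B j z))) / B

theorem Av_mono [NeZero B] (D : ℕ) : ∀ {f g : ℝ → ℝ}, (∀ x ∈ Set.Ico (0:ℝ) 1, f x ≤ g x) →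
    Av B D f ≤ Av B D g := by
  induction D with
  | zero => intro f g h; exact h 0 (by simp)
  | succ D ih =>
    intro f g h
    unfold Av
    refine div_le_div_of_nonneg_right (Finset.sum_le_sum fun j _ => ih fun z hz => ?_) B_pos.le
    exact h _ (cell_mem j hz)

theorem Av_congr [NeZero B] (D : ℕ) {f g : ℝ → ℝ} (h : ∀ x ∈ Set.Ico (0:ℝ) 1, f x = g x) :
    Av B D f = Av B D g :=
  le_antisymm (Av_mono D fun x hx => (h x hx).le) (Av_mono D fun x hx => (h x hx).ge)

theorem Av_add (D : ℕ) : ∀ (f g : ℝ → ℝ), Av B D (fun x => f x + g x) = Av B D f + Av B D g := by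
  induction D with
  | zero => intro f g; rfl
  | succ D ih =>
    intro f g
    unfold Av
    simp only [ih]
    rw [Finset.sum_add_distrib, add_div]

theorem Av_const_mul (D : ℕ) : ∀ (c : ℝ) (f : ℝ → ℝ), Av B D (fun x => c * f x) = c * Av B D f := by
  induction D with
  | zero => intro c f; rfl
  | succ D ih =>
    intro c f
    unfold Av
    simp only [ih]
    rw [← Finset.mul_sum, mul_div_assoc]

theorem Av_const [NeZero B] (D : ℕ) (c : ℝ) : Av B D (fun _ => c) = c := by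
  induction D with
  | zero => rfl
  | succ D ih =>
    unfold Av
    simp only [ih]
    rw [Finset.sum_const, Finset.card_univ, Fintype.card_fin, nsmul_eq_mul,
      mul_div_cancel_left₀ _ (B_pos (B := B)).ne']

theorem Av_sum {ι : Type*} (D : ℕ) (s : Finset ι) (F : ι → ℝ → ℝ) :
    Av B D (fun x => ∑ i ∈ s, F i x) = ∑ i ∈ s, Av B D (F i) := by
  classical
  induction s using Finset.induction_on with
  | empty =>
    simp only [Finset.sum_empty]
    have := Av_const_mul (B := B) D 0 (fun _ => 0)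
    simpa using this
  | insert a s ha ih =>
    simp only [Finset.sum_insert ha]
    rw [Av_add, ih]

theorem Av_E {α : Type} (D : ℕ) (X : FRV α) (F : α → ℝ → ℝ) :
    Av B D (fun x => X.E (fun t => F t x)) = X.E (fun t => Av B D (F t)) := by
  unfold FRV.E
  rw [Av_sum]
  exact Finset.sum_congr rfl fun o _ => Av_const_mul D _ _

theorem Av_idx_fr [NeZero B] (D : ℕ) (h : Fin B → ℝ) (f : ℝ → ℝ) :
    Av B (D + 1) (fun x => h (idx B x) * f (fr B x)) = (∑ j, h j) / B * Av B D f := by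
  rw [Av]
  have : ∀ j : Fin B, Av B D (fun z => h (idx B (cell B j z)) * f (fr B (cell B j z))) =
      h j * Av B D f := by
    intro j
    rw [← Av_const_mul]
    refine Av_congr D fun z hz => ?_
    rw [idx_cell j hz, fr_cell j hz]
  simp only [this]
  rw [← Finset.sum_mul]
  ring

theorem Av_fr [NeZero B] (D : ℕ) (f : ℝ → ℝ) :
    Av B (D + 1) (fun x => f (fr B x)) = Av B D f := by
  have h := Av_idx_fr (B := B) D (fun _ => 1) f
  simp only [one_mul] at h
  rw [h, Finset.sum_const, Finset.card_univ, Fintype.card_fin, nsmul_eq_mul, mul_one,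
    div_self (B_pos (B := B)).ne', one_mul]

/-- the outer stopping process with `T` levels -/
noncomputable def outer (P : FRV (Tr B)) (p : ℝ) (h0 : 0 ≤ p) (h1 : p ≤ 1) : ℕ → FRV (Tr B)
  | 0 => P
  | T + 1 => FRV.mix p h0 h1 (P.map Tr.mark) (((outer P p h0 h1 T).pow B).map Tr.node)

section

variable {P : FRV (Tr B)} {p : ℝ} {h0 : 0 ≤ p} {h1 : p ≤ 1}

theorem Pr_outer_succ (T : ℕ) (φ : Tr B → Prop) :
    (outer P p h0 h1 (T + 1)).Pr φ = p * P.Pr (fun t => φ (.mark t)) +
      (1 - p) * ((outer P p h0 h1 T).pow B).Pr (fun f => φ (.node f)) := by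
  rw [outer, FRV.Pr_mix, FRV.Pr_map, FRV.Pr_map]

theorem outer_hit [NeZero B] {η : ℝ} {K : ℕ}
    (hP : ∀ y ∈ Set.Ico (0:ℝ) 1, η ≤ P.Pr (fun t => mem t K y)) (T : ℕ) :
    ∀ y ∈ Set.Ico (0:ℝ) 1, η ≤ (outer P p h0 h1 T).Pr (fun t => mem t (K + T) y) := by
  induction T with
  | zero => exact hP
  | succ T ih =>
    intro y hy
    rw [Pr_outer_succ]
    have a1 : η ≤ P.Pr (fun t => mem (B := B) (Tr.mark t) (K + (T + 1)) y) :=
      (hP y hy).trans (P.Pr_mono fun (t : Tr B) ht => mem_mono t (by omega) ht)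
    have a2 : η ≤ ((outer P p h0 h1 T).pow B).Pr (fun f => mem (B := B) (Tr.node f) (K + (T + 1)) y) := by
      refine (ih (fr B y) (fr_mem hy)).trans (le_of_eq ?_)
      rw [← FRV.Pr_pow_single B (outer P p h0 h1 T) (fun t => mem t (K + T) (fr B y)) (idx B y)]
      rfl
    nlinarith

theorem outer_hit' [NeZero B] {η : ℝ} {K : ℕ}
    (hP : ∀ y ∈ Set.Ico (0:ℝ) 1, η ≤ P.Pr (fun t => mem t K y)) (M : ℕ) :
    ∀ T, M ≤ T → ∀ y ∈ Set.Ico (0:ℝ) 1,
      η * (1 - (1 - p) ^ M) ≤ (outer P p h0 h1 T).Pr (fun t => mem t (K + M) y) := by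
  induction M with
  | zero =>
    intro T _ y _
    simp only [pow_zero, sub_self, mul_zero]
    exact FRV.Pr_nonneg _ _
  | succ M ih =>
    intro T hT y hy
    obtain ⟨T, rfl⟩ : ∃ T', T = T' + 1 := ⟨T - 1, by omega⟩
    rw [Pr_outer_succ]
    have a1 : η ≤ P.Pr (fun t => mem (B := B) (Tr.mark t) (K + (M + 1)) y) :=
      (hP y hy).trans (P.Pr_mono fun (t : Tr B) ht => mem_mono t (by omega) ht)
    have a2 : η * (1 - (1 - p) ^ M) ≤
        ((outer P p h0 h1 T).pow B).Pr (fun f => mem (B := B) (Tr.node f) (K + (M + 1)) y) := by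
      refine (ih T (by omega) (fr B y) (fr_mem hy)).trans (le_of_eq ?_)
      rw [← FRV.Pr_pow_single B (outer P p h0 h1 T) (fun t => mem t (K + M) (fr B y)) (idx B y)]
      rfl
    have h2 : 0 ≤ 1 - p := by linarith
    have b1 := mul_le_mul_of_nonneg_left a1 h0
    have b2 := mul_le_mul_of_nonneg_left a2 h2
    have e : η * (1 - (1 - p) ^ (M + 1)) = p * η + (1 - p) * (η * (1 - (1 - p) ^ M)) := by
      rw [pow_succ]; ring
    rw [e]
    linarith

theorem outer_mass [NeZero B] {η : ℝ} (hP : P.E mu ≤ η) (T : ℕ) :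
    (outer P p h0 h1 T).E mu ≤ η := by
  induction T with
  | zero => exact hP
  | succ T ih =>
    rw [outer, FRV.E_mix, FRV.E_map, FRV.E_map]
    have a1 : P.E (fun t => mu (.mark t)) ≤ η := hP
    have a2 : ((outer P p h0 h1 T).pow B).E (fun f => mu (.node f)) ≤ η := by
      have e : ((outer P p h0 h1 T).pow B).E (fun f => mu (.node f)) =
          (outer P p h0 h1 T).E mu := by
        have : (fun f : Fin B → Tr B => mu (.node f)) =
            fun f => (B:ℝ)⁻¹ * ∑ j, mu (f j) := by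
          funext f
          rw [mu, div_eq_inv_mul]
        rw [this, FRV.E_const_mul, FRV.E_sum]
        simp only [FRV.E_pow_single]
        rw [Finset.sum_const, Finset.card_univ, Fintype.card_fin, nsmul_eq_mul, ← mul_assoc,
          inv_mul_cancel₀ (B_pos (B := B)).ne', one_mul]
      rw [e]
      exact ih
    nlinarith

/-- bound for the stopped part -/
noncomputable def aF (P : FRV (Tr B)) [NeZero B] (q p : ℝ) : ℕ → ℝ → ℝ
  | 0, _ => 0
  | k + 1, x => p * P.Pr (fun t => ¬ Kill q t x) + (1 - p) * aF P q p k (fr B x)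

theorem outer_stopped [NeZero B] {q : ℝ} (hq0 : 0 < q) (hq1 : q < 1) (hBq : 1 ≤ B * q) (k : ℕ) :
    ∀ T, k ≤ T → ∀ x ∈ Set.Ico (0:ℝ) 1,
      (outer P p h0 h1 T).Pr (fun t => ¬ Lk k t x ∧ ¬ Kill q t x) ≤ aF P q p k x := by
  induction k with
  | zero =>
    intro T _ x _
    rw [FRV.Pr_false _ (fun t h => h.1 trivial)]
    exact le_refl _
  | succ k ih =>
    intro T hT x hx
    obtain ⟨T, rfl⟩ : ∃ T', T = T' + 1 := ⟨T - 1, by omega⟩
    rw [Pr_outer_succ, aF]
    have a1 : P.Pr (fun t => ¬ Lk (B := B) (k + 1) (Tr.mark t) x ∧ ¬ Kill (B := B) q (Tr.mark t) x) ≤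
        P.Pr (fun t => ¬ Kill q t x) := P.Pr_mono fun t h => h.2
    have a2 : ((outer P p h0 h1 T).pow B).Pr
        (fun f => ¬ Lk (B := B) (k + 1) (Tr.node f) x ∧ ¬ Kill (B := B) q (Tr.node f) x) ≤ aF P q p k (fr B x) := by
      refine le_trans ?_ (ih T (by omega) (fr B x) (fr_mem hx))
      rw [← FRV.Pr_pow_single B (outer P p h0 h1 T)
        (fun t => ¬ Lk k t (fr B x) ∧ ¬ Kill q t (fr B x)) (idx B x)]
      exact FRV.Pr_mono _ fun f h => ⟨h.1, fun hk => h.2 (kill_node hq0 hq1 hBq hk)⟩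
    have h2 : 0 ≤ 1 - p := by linarith
    exact add_le_add (mul_le_mul_of_nonneg_left a1 h0) (mul_le_mul_of_nonneg_left a2 h2)

theorem Av_aF [NeZero B] {q β : ℝ} {D0 : ℕ}
    (hP : ∀ D, D0 ≤ D → Av B D (fun x => P.Pr (fun t => ¬ Kill q t x)) ≤ β)
    (h0 : 0 ≤ p) (h1 : p ≤ 1) (k : ℕ) :
    ∀ D, D0 + k ≤ D → Av B D (aF P q p k) ≤ (1 - (1 - p) ^ k) * β := by
  induction k with
  | zero =>
    intro D _
    simp only [pow_zero, sub_self, zero_mul]
    have := Av_const (B := B) D 0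
    exact this.le
  | succ k ih =>
    intro D hD
    obtain ⟨D, rfl⟩ : ∃ D', D = D' + 1 := ⟨D - 1, by omega⟩
    have e : aF P q p (k + 1) = fun x => p * P.Pr (fun t => ¬ Kill q t x) +
        (1 - p) * aF P q p k (fr B x) := rfl
    rw [e, Av_add, Av_const_mul, Av_const_mul, Av_fr D (aF P q p k)]
    have a1 := hP (D + 1) (by omega)
    have a2 := ih D (by omega)
    have h2 : 0 ≤ 1 - p := by linarith
    have b1 := mul_le_mul_of_nonneg_left a1 h0
    have b2 := mul_le_mul_of_nonneg_left a2 h2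
    have e2 : (1 - (1 - p) ^ (k + 1)) * β = p * β + (1 - p) * ((1 - (1 - p) ^ k) * β) := by
      rw [pow_succ]; ring
    rw [e2]
    linarith

open Classical in
/-- factor -/
noncomputable def gF (B : ℕ) [NeZero B] (b : ℕ) (r : ℝ) : ℕ → ℝ → ℝ
  | 0, _ => 1
  | k + 1, x => (if x ∈ Set.Ico (1 / (b:ℝ)) (1 - 1 / (b:ℝ)) then 1 - r else 1) *
      gF B b r k (fr B x)

theorem gF_nonneg [NeZero B] {b : ℕ} {r : ℝ} (hr : r ≤ 1) (k : ℕ) : ∀ x, 0 ≤ gF B b r k x := by
  induction k with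
  | zero => intro x; exact zero_le_one
  | succ k ih =>
    intro x
    rw [gF]
    refine mul_nonneg ?_ (ih _)
    split_ifs
    · linarith
    · exact zero_le_one

theorem outer_lucky [NeZero B] {q : ℝ} {b : ℕ} {K M : ℕ} {r : ℝ} (hq0 : 0 < q) (hq1 : q < 1)
    (hb : 1 ≤ b) (hB : (b:ℝ) < B * q) (hr : r ≤ 1)
    (hP : ∀ T, M ≤ T → ∀ y ∈ Set.Ico (0:ℝ) 1,
      r ≤ (outer P p h0 h1 T).Pr (fun t => mem t (K + M) y)) (k : ℕ) :
    ∀ T, k + M ≤ T → ∀ x ∈ Set.Ico (0:ℝ) 1, ∀ τ : ℝ, q ≤ |τ| →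
      (outer P p h0 h1 T).Pr (fun t => Lk k t x ∧ ¬ Hit q b (K + M + 1) k t x τ) ≤
        (1 - p) ^ k * gF B b r k x := by
  induction k with
  | zero =>
    intro T _ x _ τ _
    rw [pow_zero, gF, one_mul]
    exact FRV.Pr_le_one _ _
  | succ k ih =>
    intro T hT x hx τ hτ
    obtain ⟨T, rfl⟩ : ∃ T', T = T' + 1 := ⟨T - 1, by omega⟩
    rw [Pr_outer_succ, FRV.Pr_false P (fun t h => h.1), mul_zero, zero_add, gF, pow_succ']
    have h2 : 0 ≤ 1 - p := by linarith
    rw [mul_assoc]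
    refine mul_le_mul_of_nonneg_left ?_ h2
    have hBτ : q ≤ |(B:ℝ) * τ| := by
      rw [abs_mul, abs_of_pos B_pos]
      have := mul_le_mul_of_nonneg_right (one_le_B (B := B)) (abs_nonneg τ)
      linarith
    have ih' := ih T (by omega) (fr B x) (fr_mem hx) (B * τ) hBτ
    have hpow : 0 ≤ (1 - p) ^ k := pow_nonneg h2 k
    split_ifs with hg
    · -- good level
      have hy := y_mem hq0 hq1 hb hτ hg
      have hj := y_idx (B := B) hq0 hq1 hb hB hτ hx hy
      set y := x + τ * q ^ (nn q b τ) with hydef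
      have key : ((outer P p h0 h1 T).pow B).Pr
          (fun f => Lk (B := B) (k + 1) (Tr.node f) x ∧ ¬ Hit q b (K + M + 1) (k + 1) (Tr.node f) x τ) ≤
          ((outer P p h0 h1 T).pow B).Pr (fun f =>
            (Lk k (f (idx B x)) (fr B x) ∧
              ¬ Hit q b (K + M + 1) k (f (idx B x)) (fr B x) (B * τ)) ∧
            ¬ mem (f (idx B y)) (K + M) (fr B y)) := by
        refine FRV.Pr_mono _ fun f h => ⟨⟨h.1, fun hh => h.2 (Or.inr hh)⟩, fun hm => h.2 ?_⟩
        exact Or.inl ⟨hg, hm⟩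
      refine key.trans ?_
      rw [FRV.Pr_pow_pair B (outer P p h0 h1 T)
        (fun t => Lk k t (fr B x) ∧ ¬ Hit q b (K + M + 1) k t (fr B x) (B * τ))
        (fun t => ¬ mem t (K + M) (fr B y)) hj, FRV.Pr_not]
      have hm := hP T (by omega) (fr B y) (fr_mem hy)
      have hm1 := FRV.Pr_le_one (outer P p h0 h1 T) (fun t => mem t (K + M) (fr B y))
      calc _ ≤ ((1 - p) ^ k * gF B b r k (fr B x)) * (1 - r) :=
            mul_le_mul ih' (by linarith) (by linarith) (mul_nonneg hpow (gF_nonneg hr _ _))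
        _ = _ := by ring
    · have key : ((outer P p h0 h1 T).pow B).Pr
          (fun f => Lk (B := B) (k + 1) (Tr.node f) x ∧ ¬ Hit q b (K + M + 1) (k + 1) (Tr.node f) x τ) ≤
          ((outer P p h0 h1 T).pow B).Pr (fun f =>
            (Lk k (f (idx B x)) (fr B x) ∧
              ¬ Hit q b (K + M + 1) k (f (idx B x)) (fr B x) (B * τ))) :=
        FRV.Pr_mono _ fun f h => ⟨h.1, fun hh => h.2 (Or.inr hh)⟩
      refine key.trans ?_
      rw [FRV.Pr_pow_single B (outer P p h0 h1 T)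
        (fun t => Lk k t (fr B x) ∧ ¬ Hit q b (K + M + 1) k t (fr B x) (B * τ)), one_mul]
      exact ih'

end

end Crest.Agent.ES
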