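import Crest.Agent.ES.Outer

/-!
# Row 107: the induction step and the iteration
-/

set_option autoImplicit false

namespace Crest.Agent.ES

open Finset Tr

variable {B : ℕ}

/-- the inductive predicate -/
structure Good [NeZero B] (q η β : ℝ) (K D0 : ℕ) (P : FRV (Tr B)) : Prop where
  hit : ∀ y ∈ Set.Ico (0:ℝ) 1, η ≤ P.Pr (fun t => mem t K y)
  mass : P.E mu ≤ η
  kill : ∀ D, D0 ≤ D → Av B D (fun x => P.Pr (fun t => ¬ Kill q t x)) ≤ β

theorem good_base [NeZero B] {q η : ℝ} (h0 : 0 ≤ η) (h1 : η ≤ 1) :
    Good (B := B) q η 1 0 0 (FRV.mix η h0 h1 (FRV.dirac Tr.full) (FRV.dirac Tr.empty)) := by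
  refine ⟨fun y _ => ?_, ?_, fun D _ => ?_⟩
  · rw [FRV.Pr_mix]
    have a1 : (FRV.dirac (Tr.full : Tr B)).Pr (fun t => mem t 0 y) = 1 := by
      unfold FRV.Pr
      rw [FRV.E_dirac]
      simp [mem]
    have a2 := FRV.Pr_nonneg (FRV.dirac (Tr.empty : Tr B)) (fun t => mem t 0 y)
    rw [a1]
    nlinarith
  · rw [FRV.E_mix, FRV.E_dirac, FRV.E_dirac]
    simp [mu]
  · have h := Av_mono (B := B) D (f := fun x => (FRV.mix η h0 h1 (FRV.dirac (Tr.full : Tr B))
      (FRV.dirac Tr.empty)).Pr (fun t => ¬ Kill q t x)) (g := fun _ => 1)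
      (fun x _ => FRV.Pr_le_one _ _)
    rw [Av_const] at h
    exact h

/-- the grid of scales -/
theorem exists_grid {q N : ℝ} (hq0 : 0 < q) (hN : 0 < N) :
    ∃ G : Finset ℝ, (G.card : ℝ) ≤ 2 * (N / q + 1) ∧ (∀ τ ∈ G, q ≤ |τ|) ∧
      ∀ σ : ℝ, q ≤ |σ| → |σ| ≤ 1 → ∃ τ ∈ G, |σ - τ| < |τ| / N := by
  classical
  set L := ⌊N / q⌋₊ with hL
  have hNq : 0 ≤ N / q := by positivity
  refine ⟨(range (L + 1)).image (fun i : ℕ => q + i * (q / N)) ∪
    (range (L + 1)).image (fun i : ℕ => -(q + i * (q / N))), ?_, ?_, ?_⟩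
  · have h1 : ((range (L + 1)).image (fun i : ℕ => q + i * (q / N)) ∪
        (range (L + 1)).image (fun i : ℕ => -(q + i * (q / N)))).card ≤ (L + 1) + (L + 1) := by
      refine (Finset.card_union_le _ _).trans (Nat.add_le_add ?_ ?_) <;>
      · refine Finset.card_image_le.trans ?_
        rw [card_range]
    have h2 : (L:ℝ) ≤ N / q := Nat.floor_le hNq
    have h3 : (((range (L + 1)).image (fun i : ℕ => q + i * (q / N)) ∪
        (range (L + 1)).image (fun i : ℕ => -(q + i * (q / N)))).card : ℝ) ≤ (L + 1) + (L + 1) := by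
      exact_mod_cast h1
    linarith
  · intro τ hτ
    have hnn : ∀ i : ℕ, q ≤ q + i * (q / N) := fun i => by
      have : 0 ≤ (i:ℝ) * (q / N) := by positivity
      linarith
    rcases Finset.mem_union.1 hτ with h | h
    · obtain ⟨i, _, rfl⟩ := Finset.mem_image.1 h
      exact (hnn i).trans (le_abs_self _)
    · obtain ⟨i, _, rfl⟩ := Finset.mem_image.1 h
      rw [abs_neg]
      exact (hnn i).trans (le_abs_self _)
  · intro σ h1 h2
    set i := ⌊(|σ| - q) * (N / q)⌋₊ with hi
    have h3 : 0 ≤ (|σ| - q) * (N / q) := mul_nonneg (by linarith) hNq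
    have h4 := Nat.floor_le h3
    have h5 := Nat.lt_floor_add_one ((|σ| - q) * (N / q))
    rw [← hi] at h4 h5
    have hiL : i ∈ range (L + 1) := by
      rw [mem_range]
      refine Nat.lt_succ_of_le (Nat.floor_le_floor ?_)
      have : |σ| - q ≤ 1 := by linarith
      nlinarith
    have h6 : (i:ℝ) * (q / N) ≤ |σ| - q := by
      have := mul_le_mul_of_nonneg_right h4 (by positivity : 0 ≤ q / N)
      have e : (|σ| - q) * (N / q) * (q / N) = |σ| - q := by
        field_simp
      linarith
    have h7 : |σ| - q < ((i:ℝ) + 1) * (q / N) := by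
      have := mul_lt_mul_of_pos_right h5 (by positivity : 0 < q / N)
      have e : (|σ| - q) * (N / q) * (q / N) = |σ| - q := by
        field_simp
      linarith
    have hnn : 0 ≤ (i:ℝ) * (q / N) := by positivity
    have h8 : |(|σ| - (q + i * (q / N)))| < (q + i * (q / N)) / N := by
      rw [abs_of_nonneg (by linarith)]
      have : q / N ≤ (q + i * (q / N)) / N := by
        gcongr
        linarith
      linarith
    rcases abs_cases σ with ⟨h, _⟩ | ⟨h, _⟩
    · refine ⟨q + i * (q / N), Finset.mem_union_left _ (Finset.mem_image_of_mem _ hiL), ?_⟩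
      rw [abs_of_pos (by linarith : 0 < q + i * (q / N))]
      rw [h] at h8
      exact h8
    · refine ⟨-(q + i * (q / N)), Finset.mem_union_right _ (Finset.mem_image_of_mem _ hiL), ?_⟩
      rw [abs_neg, abs_of_pos (by linarith : 0 < q + i * (q / N))]
      rw [h] at h8
      rw [← abs_neg]
      have e : -(σ - -(q + i * (q / N))) = -σ - (q + i * (q / N)) := by ring
      rw [e]
      exact h8

open Classical in
/-- the average of the factor -/
theorem Av_gF [NeZero B] {b : ℕ} (hb : 4 ≤ b) (hB : B = b * b) {r : ℝ} (hr0 : 0 ≤ r) (hr : r ≤ 1)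
    (k : ℕ) : ∀ D, k ≤ D → Av B D (gF B b r k) ≤ (1 - r / 2) ^ k := by
  induction k with
  | zero =>
    intro D _
    have := Av_const (B := B) D 1
    rw [pow_zero]
    exact this.le
  | succ k ih =>
    intro D hD
    obtain ⟨D, rfl⟩ : ∃ D', D = D' + 1 := ⟨D - 1, by omega⟩
    have hbR : (4:ℝ) ≤ b := by exact_mod_cast hb
    have hBR : (B:ℝ) = b * b := by rw [hB]; push_cast; ring
    -- the digit decides goodness
    have e : ∀ x ∈ Set.Ico (0:ℝ) 1, gF B b r (k + 1) x ≤
        (if (b ≤ (idx B x).val ∧ (idx B x).val + b < B) then 1 - r else 1) * gF B b r k (fr B x) := by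
      intro x hx
      rw [gF]
      refine mul_le_mul_of_nonneg_right ?_ (gF_nonneg hr _ _)
      by_cases h : b ≤ (idx B x).val ∧ (idx B x).val + b < B
      · have hx' : x ∈ Set.Ico (1 / (b:ℝ)) (1 - 1 / (b:ℝ)) := by
          have hfr := fr_mem (B := B) hx
          have hxe : (B:ℝ) * x = (idx B x).val + fr B x := by unfold fr; ring
          have h1 : (b:ℝ) ≤ (idx B x).val := by exact_mod_cast h.1
          have h2 : ((idx B x).val : ℝ) + 1 + b ≤ B := by
            have := h.2
            exact_mod_cast (by omega : (idx B x).val + 1 + b ≤ B)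
          have hbpos : (0:ℝ) < b := by linarith
          constructor
          · rw [div_le_iff₀ hbpos]
            have h3 : (b:ℝ) ≤ b * b * x := by
              rw [← hBR, hxe]; linarith [hfr.1]
            have : (b:ℝ) * 1 ≤ b * (x * b) := by linarith
            exact le_of_mul_le_mul_left this hbpos
          · have h3 : (b:ℝ) * b * x < b * b - b := by
              rw [← hBR, hxe]; linarith [hfr.2]
            have h4 : (1 - 1 / (b:ℝ)) = (b * b - b) / (b * b) := by
              field_simp
            rw [h4, lt_div_iff₀ (by positivity)]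
            linarith
        simp only [hx', h, and_self, if_true]
        exact le_refl _
      · simp only [h, if_false]
        split_ifs
        · linarith
        · exact le_refl _
    refine (Av_mono (D + 1) e).trans ?_
    rw [Av_idx_fr D (fun j => if (b ≤ j.val ∧ j.val + b < B) then 1 - r else 1) (gF B b r k),
      pow_succ']
    have hnn : 0 ≤ Av B D (gF B b r k) := by
      have := Av_mono (B := B) D (f := fun _ => 0) (g := gF B b r k) (fun x _ => gF_nonneg hr _ _)
      rwa [Av_const] at this
    refine mul_le_mul ?_ (ih D (by omega)) hnn (by linarith)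
    rw [div_le_iff₀ B_pos]
    -- counting
    have hcount : (B:ℝ) / 2 ≤ ((Finset.univ.filter
        (fun j : Fin B => b ≤ j.val ∧ j.val + b < B)).card : ℝ) := by
      have h1 : (Finset.Ico b (B - b)).card ≤ (Finset.univ.filter
        (fun j : Fin B => b ≤ j.val ∧ j.val + b < B)).card := by
        rw [← Finset.card_map Fin.valEmbedding]
        refine Finset.card_le_card fun i hi => ?_
        rw [Finset.mem_Ico] at hi
        rw [Finset.mem_map]
        exact ⟨⟨i, by omega⟩, by simp; omega, rfl⟩
      rw [Nat.card_Ico] at h1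
      have h2 : ((B - b - b : ℕ) : ℝ) ≤ ((Finset.univ.filter
        (fun j : Fin B => b ≤ j.val ∧ j.val + b < B)).card : ℝ) := by exact_mod_cast h1
      have hle : b + b ≤ B := by rw [hB]; nlinarith
      rw [Nat.sub_sub, Nat.cast_sub hle] at h2
      push_cast at h2
      rw [hBR] at h2 ⊢
      nlinarith
    have hsum : ∑ j : Fin B, (if (b ≤ j.val ∧ j.val + b < B) then 1 - r else 1) =
        B - r * ((Finset.univ.filter (fun j : Fin B => b ≤ j.val ∧ j.val + b < B)).card : ℝ) := by
      have : ∀ j : Fin B, (if (b ≤ j.val ∧ j.val + b < B) then 1 - r else (1:ℝ)) =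
          1 - r * (if (b ≤ j.val ∧ j.val + b < B) then 1 else 0) := by
        intro j
        split_ifs <;> ring
      simp only [this]
      rw [Finset.sum_sub_distrib, ← Finset.mul_sum, Finset.sum_boole, Finset.sum_const,
        Finset.card_univ, Fintype.card_fin, nsmul_eq_mul, mul_one]
    rw [hsum]
    nlinarith

end Crest.Agent.ES
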